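import Vale.Agent.P329.H559.C2.Defs

/-!
# P329 / automata over blocks of `2 ^ q` letters
-/

set_option linter.all false

namespace Vale.Agent.P329.H559.C2

open Vale.Agent.P329

section lift

variable {α : Type} {h : ℕ} {σ : Type}

/-- collect `h` letters, then apply the automaton -/
def lf (δ : σ → Blk α h → Option σ) (s : σ × Par α h) (b : α) : Option (σ × Par α h) :=
  if e : s.2.1.length + 1 = h then (δ s.1 ⟨b :: s.2.1, e⟩).map fun t => (t, nxt s.2 b)
  else some (s.1, nxt s.2 b)

theorem nxt_full {K : Par α h} (b : α) (e : K.1.length + 1 = h) : (nxt K b).1 = [] := by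
  unfold nxt
  rw [dif_neg (by omega)]
  rfl

theorem nxt_part {K : Par α h} (b : α) (e : ¬ K.1.length + 1 = h) : (nxt K b).1 = b :: K.1 := by
  unfold nxt
  have := K.2
  rw [dif_pos (by omega)]

theorem ps_full {K : Par α h} (b : α) (w : List α) (e : K.1.length + 1 = h) :
    ps K (b :: w) = ⟨b :: K.1, e⟩ :: ps (nxt K b) w := by
  rw [ps, dif_pos e]

theorem ps_part {K : Par α h} (b : α) (w : List α) (e : ¬ K.1.length + 1 = h) :
    ps K (b :: w) = ps (nxt K b) w := by
  rw [ps, dif_neg e]

theorem ps_append (u v : List α) : ∀ K : Par α h, ps K (u ++ v) = ps K u ++ ps (rm K u) v := by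
  induction u with
  | nil => intro K; rfl
  | cons b u ih =>
    intro K
    rw [List.cons_append, rm]
    by_cases e : K.1.length + 1 = h
    · rw [ps_full b _ e, ps_full b _ e, ih, List.cons_append]
    · rw [ps_part b _ e, ps_part b _ e, ih]

theorem rm_append (u v : List α) : ∀ K : Par α h, rm K (u ++ v) = rm (rm K u) v := by
  induction u with
  | nil => intro K; rfl
  | cons b u ih => intro K; rw [List.cons_append, rm, rm, ih]

theorem run_lf {δ : σ → Blk α h → Option σ} (w : List α) : ∀ (s : σ) (K : Par α h),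
    run (lf δ) (s, K) w = (run δ s (ps K w)).map fun t => (t, rm K w) := by
  induction w with
  | nil => intro s K; rfl
  | cons b w ih =>
    intro s K
    by_cases e : K.1.length + 1 = h
    · rw [ps_full b w e, rm]
      rcases hs : δ s ⟨b :: K.1, e⟩ with _ | t
      · have h1 : lf δ (s, K) b = none := by
          unfold lf
          rw [dif_pos e, hs]
          rfl
        rw [run_cons_none w h1, run_cons_none _ hs]
        rfl
      · have h1 : lf δ (s, K) b = some (t, nxt K b) := by
          unfold lf
          rw [dif_pos e, hs]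
          rfl
        rw [run_cons_some w h1, run_cons_some _ hs, ih]
    · rw [ps_part b w e, rm]
      have h1 : lf δ (s, K) b = some (s, nxt K b) := by
        unfold lf
        rw [dif_neg e]
      rw [run_cons_some w h1, ih]

theorem fin_lf {δ : σ → Blk α h → Option σ} (K₀ : Par α h) (hK₀ : K₀.1 = []) (b₀ : σ) (w : List α) :
    ∀ (s : σ) (K : Par α h),
      fin (lf δ) (b₀, K₀) (s, K) w = (fin δ b₀ s (ps K w), rm K w) ∧
      cnt (lf δ) (b₀, K₀) (s, K) w = cnt δ b₀ s (ps K w) := by
  induction w with
  | nil => intro s K; exact ⟨rfl, rfl⟩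
  | cons b w ih =>
    intro s K
    by_cases e : K.1.length + 1 = h
    · rw [ps_full b w e, rm]
      rcases hs : δ s ⟨b :: K.1, e⟩ with _ | t
      · have h1 : lf δ (s, K) b = none := by
          unfold lf
          rw [dif_pos e, hs]
          rfl
        have h2 : nxt K b = K₀ := Subtype.ext (by rw [nxt_full b e, hK₀])
        rw [fin_cons_none w h1, fin_cons_none _ hs, cnt_cons_none w h1, cnt_cons_none _ hs,
          (ih b₀ K₀).1, (ih b₀ K₀).2, h2]
        exact ⟨rfl, rfl⟩
      · have h1 : lf δ (s, K) b = some (t, nxt K b) := by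
          unfold lf
          rw [dif_pos e, hs]
          rfl
        rw [fin_cons_some w h1, fin_cons_some _ hs, cnt_cons_some w h1, cnt_cons_some _ hs,
          (ih t _).1, (ih t _).2]
        exact ⟨rfl, rfl⟩
    · rw [ps_part b w e, rm]
      have h1 : lf δ (s, K) b = some (s, nxt K b) := by
        unfold lf
        rw [dif_neg e]
      rw [fin_cons_some w h1, cnt_cons_some w h1, (ih s _).1, (ih s _).2]
      exact ⟨rfl, rfl⟩

/-- the open block: number of letters and content -/
theorem rm_len (w : List α) : ∀ K : Par α h,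
    (rm K w).1 = (w.reverse ++ K.1).take (rm K w).1.length ∧
    (rm K w).1.length = (K.1.length + w.length) % h ∧
    (ps K w).length = (K.1.length + w.length) / h := by
  induction w with
  | nil =>
    intro K
    refine ⟨?_, ?_, ?_⟩
    · rw [rm, List.reverse_nil, List.nil_append, List.take_length]
    · rw [rm, List.length_nil, Nat.add_zero, Nat.mod_eq_of_lt K.2]
    · rw [ps, List.length_nil, List.length_nil, Nat.add_zero, Nat.div_eq_of_lt K.2]
  | cons b w ih =>
    intro K
    obtain ⟨h1, h2, h3⟩ := ih (nxt K b)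
    rw [rm]
    have hK := K.2
    by_cases e : K.1.length + 1 = h
    · have h4 := nxt_full b e
      rw [h4, List.append_nil] at h1
      rw [h4, List.length_nil, Nat.zero_add] at h2 h3
      refine ⟨?_, ?_, ?_⟩
      · have h5 : (rm (nxt K b) w).1.length ≤ w.reverse.length := by
          rw [h2, List.length_reverse]; exact Nat.mod_le _ _
        rw [List.reverse_cons, List.append_assoc, List.take_append_of_le_length h5]
        exact h1
      · rw [h2, List.length_cons, show K.1.length + (w.length + 1) = w.length + h by omega,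
          Nat.add_mod_right]
      · rw [ps_full b w e, List.length_cons, h3, List.length_cons,
          show K.1.length + (w.length + 1) = w.length + h by omega,
          Nat.add_div_right _ (by omega)]
    · have h4 := nxt_part b e
      rw [h4] at h1
      rw [h4, List.length_cons] at h2 h3
      refine ⟨?_, ?_, ?_⟩
      · rw [List.reverse_cons, List.append_assoc, List.singleton_append]
        exact h1
      · rw [h2, List.length_cons]
        congr 1
        omega
      · rw [ps_part b w e, h3, List.length_cons]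
        congr 1
        omega

/-- the open block is periodic along a cycle -/
theorem rm_cyc {K : Par α h} {z : List α} {n : ℕ} (hn : 0 < n) (hz : z ≠ []) (hd : h ∣ z.length)
    (hr : rm K (pw z n) = K) : rm K z = K := by
  have hz' : 0 < z.length := List.length_pos_iff.mpr hz
  have hle : h ≤ z.length := Nat.le_of_dvd hz' hd
  obtain ⟨h1, h2, -⟩ := rm_len z K
  obtain ⟨h3, -, -⟩ := rm_len (pw z n) K
  rw [hr] at h3
  have hK := K.2
  have h4 : (rm K z).1.length = K.1.length := by
    obtain ⟨c, hc⟩ := hd
    rw [h2, hc, Nat.add_mul_mod_self_left, Nat.mod_eq_of_lt hK]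
  obtain ⟨k, rfl⟩ : ∃ k, n = k + 1 := ⟨n - 1, by omega⟩
  refine Subtype.ext ?_
  rw [h1, h4]
  rw [pw_succ, ← pw_comm, List.reverse_append, List.append_assoc,
    List.take_append_of_le_length (by rw [List.length_reverse]; omega)] at h3
  rw [List.take_append_of_le_length (by rw [List.length_reverse]; omega), ← h3]

theorem ps_pw {K : Par α h} {z : List α} (hr : rm K z = K) (n : ℕ) :
    ps K (pw z n) = pw (ps K z) n := by
  induction n with
  | zero => rfl
  | succ n ih => rw [pw_succ, ps_append, hr, ih, pw_succ]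

end lift

/-- **collecting blocks of `2 ^ q` letters keeps automata without cycles**, if there are no odd
cycles -/
theorem lf_nocyc {α σ : Type} {q : ℕ} {δ : σ → Blk α (2 ^ q) → Option σ} (h1 : NoCyc δ)
    (h2 : ∀ (z : List (Blk α (2 ^ q))) (s : σ) (n : ℕ), 0 < n → run δ s (pw z n) = some s →
      Even z.length) : NoCyc (lf δ) := by
  rintro z ⟨s, K⟩ n hn hrun
  change run (lf δ) (s, K) (pw z n) = some (s, K) at hrun
  by_cases hz : z = []
  · subst hz; rfl
  have hz' : 0 < z.length := List.length_pos_iff.mpr hz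
  have key : ∀ Y : List α, Y ≠ [] → 2 ^ q ∣ Y.length → run (lf δ) (s, K) (pw Y n) = some (s, K) →
      rm K Y = K ∧ run δ s (pw (ps K Y) n) = some s := by
    intro Y hY hd hY'
    rw [run_lf] at hY'
    rcases h3 : run δ s (ps K (pw Y n)) with _ | t
    · rw [h3] at hY'; cases hY'
    · rw [h3] at hY'
      have h4 := Option.some.inj hY'
      have h5 : t = s := congrArg Prod.fst h4
      have h6 : rm K (pw Y n) = K := congrArg Prod.snd h4
      have h7 := rm_cyc hn hY hd h6
      refine ⟨h7, ?_⟩
      rw [← ps_pw h7, h3, h5]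
  by_cases hN : 2 ^ q ∣ z.length
  · obtain ⟨h3, h4⟩ := key z hz hN hrun
    rw [run_lf, h1 (ps K z) s n hn h4, h3]
    rfl
  exfalso
  obtain ⟨e, m, hm, ha⟩ := Nat.exists_eq_two_pow_mul_odd hz'.ne'
  have he : e < q := by
    by_contra hc
    apply hN
    rw [ha]
    exact (pow_dvd_pow 2 (by omega)).mul_right m
  have hm0 : 0 < m := hm.pos
  have hp : 0 < 2 ^ q := pow_pos (by norm_num) _
  have hVl : (pw z (2 ^ (q - e))).length = 2 ^ q * m := by
    rw [pw_length, ha, ← mul_assoc, ← pow_add, Nat.sub_add_cancel he.le]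
  have hV0 : pw z (2 ^ (q - e)) ≠ [] := by
    rw [← List.length_pos_iff, hVl]
    exact Nat.mul_pos hp hm0
  have h3 : run (lf δ) (s, K) (pw (pw z (2 ^ (q - e))) n) = some (s, K) := by
    have e1 : pw (pw z (2 ^ (q - e))) n = pw (pw z n) (2 ^ (q - e)) := by
      simp only [← pw_mul]
      congr 1
      ring
    rw [e1]
    exact run_pw hrun _
  obtain ⟨-, h4⟩ := key _ hV0 (by rw [hVl]; exact dvd_mul_right _ _) h3
  have h5 := h2 _ _ _ hn h4
  rw [(rm_len _ K).2.2, hVl, Nat.add_mul_div_left _ _ hp, Nat.div_eq_of_lt K.2, Nat.zero_add] at h5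
  exact (Nat.not_even_iff_odd.mpr hm) h5

section known

variable {α : Type} {h : ℕ}

/-- known functions of the blocks -/
def KB {B : Type} (F : List (Blk α h) → B) : Prop := ∀ K : Par α h, Kn fun w => F (ps K w)

/-- known integer functions of the blocks -/
def KZ (F : List (Blk α h) → ℤ) : Prop := ∀ K : Par α h, KnZ fun w => F (ps K w)

theorem KZ.of_cnt {α σ : Type} [Finite α] [Finite σ] {q : ℕ} {δ : σ → Blk α (2 ^ q) → Option σ}
    (h1 : NoCyc δ) (h2 : ∀ (z : List (Blk α (2 ^ q))) (s : σ) (n : ℕ), 0 < n →
      run δ s (pw z n) = some s → Even z.length) (b s : σ) :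
    KZ fun w => (cnt δ b s w : ℤ) := by
  intro K
  have hp : 0 < 2 ^ q := pow_pos (by norm_num) _
  refine (KnZ.of_event (lf_nocyc h1 h2) (b, ⟨[], hp⟩) (s, K)).congr fun w => ?_
  rw [(fin_lf ⟨[], hp⟩ rfl b w s K).2]

theorem KB.of_fin {α σ : Type} [Finite α] [Finite σ] {q : ℕ} {δ : σ → Blk α (2 ^ q) → Option σ}
    (h1 : NoCyc δ) (h2 : ∀ (z : List (Blk α (2 ^ q))) (s : σ) (n : ℕ), 0 < n →
      run δ s (pw z n) = some s → Even z.length) (b s : σ) :
    KB (fin δ b s) := by
  intro K
  have hp : 0 < 2 ^ q := pow_pos (by norm_num) _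
  have h3 := (Kn.of_event (lf_nocyc h1 h2) (b, ⟨[], hp⟩) (s, K)).comp fun x => x.1
  intro v
  refine Eq.mp (congrArg (SH 1) ?_) (h3 v)
  ext w
  have h4 := congrArg Prod.fst (fin_lf (δ := δ) ⟨[], hp⟩ rfl b w s K).1
  exact ⟨fun h5 => h4.symm.trans h5, fun h5 => h4.trans h5⟩

end known

end Vale.Agent.P329.H559.C2
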