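import Vale.Agent.P329.H559.C2.Sys2
import Vale.Agent.P329.H559.C2.Lift
import Vale.Agent.P329.Bdl.B2
import Mathlib.Algebra.Module.Pi
import Mathlib.LinearAlgebra.Pi

/-!
# P329 / pair counts of pairs of blocks
-/

set_option linter.all false

namespace Vale.Agent.P329.H559.C2

open Vale.Agent.P329

section alg

variable {A : Type}

/-- curried form -/
def cu (d : A × A → ℤ) : A → A → ℤ := fun y x => d (y, x)

/-- sum over the completed pairs of `e` times (`k` plus the sum of `d` over the earlier pairs) -/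
def dQ (d e : A × A → ℤ) : ℤ → Option A → List A → ℤ
  | _, _, [] => 0
  | k, none, x :: w => dQ d e k (some x) w
  | k, some y, x :: w => e (y, x) * k + dQ d e (k + d (y, x)) none w

theorem dQ_add_left (d₁ d₂ e : A × A → ℤ) (w : List A) : ∀ (k₁ k₂ : ℤ) (φ : Option A),
    dQ (d₁ + d₂) e (k₁ + k₂) φ w = dQ d₁ e k₁ φ w + dQ d₂ e k₂ φ w := by
  induction w with
  | nil => intro k₁ k₂ φ; rw [dQ, dQ, dQ, add_zero]
  | cons x w ih =>
    intro k₁ k₂ φ
    cases φ with
    | none => rw [dQ, dQ, dQ, ih]
    | some y =>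
      rw [dQ, dQ, dQ, show k₁ + k₂ + (d₁ + d₂) (y, x) = (k₁ + d₁ (y, x)) + (k₂ + d₂ (y, x)) by
        rw [Pi.add_apply]; ring, ih]
      ring

theorem dQ_smul_left (c : ℤ) (d e : A × A → ℤ) (w : List A) : ∀ (k : ℤ) (φ : Option A),
    dQ (c • d) e (c * k) φ w = c * dQ d e k φ w := by
  induction w with
  | nil => intro k φ; rw [dQ, dQ, mul_zero]
  | cons x w ih =>
    intro k φ
    cases φ with
    | none => rw [dQ, dQ, ih]
    | some y =>
      rw [dQ, dQ, show c * k + (c • d) (y, x) = c * (k + d (y, x)) by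
        rw [Pi.smul_apply, smul_eq_mul]; ring, ih]
      ring

theorem dQ_add_right (d e₁ e₂ : A × A → ℤ) (w : List A) : ∀ (k : ℤ) (φ : Option A),
    dQ d (e₁ + e₂) k φ w = dQ d e₁ k φ w + dQ d e₂ k φ w := by
  induction w with
  | nil => intro k φ; rw [dQ, dQ, dQ, add_zero]
  | cons x w ih =>
    intro k φ
    cases φ with
    | none => rw [dQ, dQ, dQ, ih]
    | some y => rw [dQ, dQ, dQ, ih, Pi.add_apply]; ring

theorem dQ_smul_right (c : ℤ) (d e : A × A → ℤ) (w : List A) : ∀ (k : ℤ) (φ : Option A),
    dQ d (c • e) k φ w = c * dQ d e k φ w := by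
  induction w with
  | nil => intro k φ; rw [dQ, dQ, mul_zero]
  | cons x w ih =>
    intro k φ
    cases φ with
    | none => rw [dQ, dQ, ih]
    | some y => rw [dQ, dQ, ih, Pi.smul_apply, smul_eq_mul]; ring

/-- the pair sums as a bilinear map -/
def LQ (φ : Option A) (w : List A) : (A × A → ℤ) →ₗ[ℤ] (A × A → ℤ) →ₗ[ℤ] ℤ :=
  LinearMap.mk₂ ℤ (fun d e => dQ d e 0 φ w)
    (fun d₁ d₂ e => by
      have := dQ_add_left d₁ d₂ e w 0 0 φ
      rwa [add_zero] at this)
    (fun c d e => by
      have := dQ_smul_left c d e w 0 φ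
      rw [mul_zero] at this
      rw [this, smul_eq_mul])
    (fun d e₁ e₂ => dQ_add_right d e₁ e₂ w 0 φ)
    (fun c d e => by rw [dQ_smul_right, smul_eq_mul])

theorem LQ_apply (φ : Option A) (w : List A) (d e : A × A → ℤ) : LQ φ w d e = dQ d e 0 φ w := rfl

open Classical in
/-- indicator -/
noncomputable def dl (γ : A × A) : A × A → ℤ := fun β => if γ = β then 1 else 0

theorem dl_self (γ : A × A) : dl γ γ = 1 := by rw [dl, if_pos rfl]
theorem dl_ne {γ β : A × A} (h : γ ≠ β) : dl γ β = 0 := by rw [dl, if_neg h]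

theorem LQ_expand [Fintype A] (φ : Option A) (w : List A) (d e : A × A → ℤ) :
    dQ d e 0 φ w = ∑ γ : A × A, ∑ β : A × A, d γ * (e β * dQ (dl γ) (dl β) 0 φ w) := by
  classical
  have h1 : ∀ f : A × A → ℤ, f = ∑ γ : A × A, f γ • (dl γ) := by
    intro f
    funext β
    rw [Finset.sum_apply, Finset.sum_eq_single β]
    · rw [Pi.smul_apply, dl_self, smul_eq_mul, mul_one]
    · intro γ _ h
      rw [Pi.smul_apply, dl_ne h, smul_eq_mul, mul_zero]
    · intro h; exact absurd (Finset.mem_univ _) h
  rw [← LQ_apply]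
  conv_lhs => rw [h1 d]
  rw [map_sum, LinearMap.sum_apply]
  refine Finset.sum_congr rfl fun γ _ => ?_
  rw [map_smul, LinearMap.smul_apply, smul_eq_mul]
  conv_lhs => rw [h1 e]
  rw [map_sum, Finset.mul_sum]
  refine Finset.sum_congr rfl fun β _ => ?_
  rw [map_smul, smul_eq_mul, LQ_apply]

/-- product rule -/
theorem dQ_mul (d e : A × A → ℤ) (w : List A) : ∀ (k l : ℤ) (φ : Option A),
    dQ d e k φ w + dQ e d l φ w + dd (cu (d * e)) φ w =
      (k + dd (cu d) φ w) * (l + dd (cu e) φ w) - k * l := by
  induction w with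
  | nil => intro k l φ; rw [dQ, dQ, dd, dd, dd]; ring
  | cons x w ih =>
    intro k l φ
    cases φ with
    | none => rw [dQ, dQ, dd, dd, dd, ih]
    | some y =>
      have h1 := ih (k + d (y, x)) (l + e (y, x)) none
      rw [dQ, dQ, dd, dd, dd]
      change e (y, x) * k + dQ d e (k + d (y, x)) none w +
        (d (y, x) * l + dQ e d (l + e (y, x)) none w) +
        ((d * e) (y, x) + dd (cu (d * e)) none w) =
        (k + (d (y, x) + dd (cu d) none w)) * (l + (e (y, x) + dd (cu e) none w)) - k * l
      rw [Pi.mul_apply]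
      linear_combination h1

end alg

section sys

variable {A : Type} {M : ℕ} [NeZero M]

theorem cnt_sp (d : A → A → ℤ) (T : A → A → Prop) (u : ZMod M) (y x : A) (w : List A) :
    cnt (sp d T) (0, none) (u, some y) (x :: w) =
      (open Classical in if u + ((d y x : ℤ) : ZMod M) = 0 ∧ (d y x ≠ 0 ∨ T y x) then 1 else 0) +
        cnt (sp d T) (0, none) (u + ((d y x : ℤ) : ZMod M), none) w := by
  classical
  by_cases h0 : u + ((d y x : ℤ) : ZMod M) = 0 ∧ (d y x ≠ 0 ∨ T y x)
  · have h1 : sp d T (u, some y) x = none := by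
      unfold sp
      dsimp only
      rw [if_pos h0]
    rw [cnt_cons_none w h1, if_pos h0, h0.1, Nat.add_comm]
  · have h1 : sp d T (u, some y) x = some (u + ((d y x : ℤ) : ZMod M), none) := by
      unfold sp
      dsimp only
      rw [if_neg h0]
    rw [cnt_cons_some w h1, if_neg h0, Nat.zero_add]

theorem fin_sp (d : A → A → ℤ) (T : A → A → Prop) (w : List A) : ∀ (u : ZMod M) (φ : Option A),
    fin (sp d T) (0, none) (u, φ) w = (u + ((dd d φ w : ℤ) : ZMod M), pn φ w) := by
  classical
  induction w with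
  | nil => intro u φ; rw [dd, Int.cast_zero, add_zero]; rfl
  | cons x w ih =>
    intro u φ
    cases φ with
    | none => rw [fin_cons_some w (sp_none (d := d) (T := T)), ih]; rfl
    | some y =>
      rw [dd, Int.cast_add, ← add_assoc, pn]
      by_cases h0 : u + ((d y x : ℤ) : ZMod M) = 0 ∧ (d y x ≠ 0 ∨ T y x)
      · have h1 : sp d T (u, some y) x = none := by
          unfold sp
          dsimp only
          rw [if_pos h0]
        rw [fin_cons_none w h1, ih, h0.1]
      · have h1 : sp d T (u, some y) x = some (u + ((d y x : ℤ) : ZMod M), none) := by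
          unfold sp
          dsimp only
          rw [if_neg h0]
        rw [fin_cons_some w h1, ih]

open Classical in
/-- number of completed pairs `β` with coordinate zero -/
noncomputable def el (d : A → A → ℤ) (β : A × A) : ZMod M → Option A → List A → ℤ
  | _, _, [] => 0
  | u, none, x :: w => el d β u (some x) w
  | u, some y, x :: w => (if β = (y, x) ∧ u = 0 then 1 else 0) +
      el d β (u + ((d y x : ℤ) : ZMod M)) none w

theorem el_eq (d : A → A → ℤ) (β : A × A) (hβ : d β.1 β.2 = 0) (w : List A) :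
    ∀ (u : ZMod M) (φ : Option A),
      (cnt (sp d fun y x => β = (y, x)) (0, none) (u, φ) w : ℤ) -
        (cnt (sp d fun _ _ => False) (0, none) (u, φ) w : ℤ) = el d β u φ w := by
  classical
  induction w with
  | nil => intro u φ; rw [el, cnt, cnt, sub_self]
  | cons x w ih =>
    intro u φ
    cases φ with
    | none =>
      rw [cnt_cons_some w (sp_none (d := d) (T := fun y x => β = (y, x))),
        cnt_cons_some w (sp_none (d := d) (T := fun _ _ => False)), el]
      exact ih u (some x)
    | some y =>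
      rw [cnt_sp, cnt_sp, el, ← ih]
      by_cases h1 : β = (y, x)
      · have h2 : d y x = 0 := by rw [h1] at hβ; exact hβ
        rw [h2, Int.cast_zero, add_zero]
        by_cases h3 : u = 0
        · rw [if_pos ⟨h3, Or.inr h1⟩, if_neg (by rintro ⟨-, h4 | h4⟩; exact h4 rfl; exact h4),
            if_pos ⟨h1, h3⟩]
          push_cast; ring
        · rw [if_neg (fun h => h3 h.1), if_neg (fun h => h3 h.1), if_neg (fun h => h3 h.2)]
          push_cast; ring
      · rw [if_neg (fun h : β = (y, x) ∧ u = 0 => h1 h.1)]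
        by_cases h3 : u + ((d y x : ℤ) : ZMod M) = 0 ∧ d y x ≠ 0
        · rw [if_pos ⟨h3.1, Or.inl h3.2⟩, if_pos ⟨h3.1, Or.inl h3.2⟩]
          push_cast; ring
        · rw [if_neg (fun h => by
            rcases h.2 with h4 | h4
            · exact h3 ⟨h.1, h4⟩
            · exact h1 h4), if_neg (fun h => by
            rcases h.2 with h4 | h4
            · exact h3 ⟨h.1, h4⟩
            · exact h4)]
          push_cast; ring

theorem dQ_el (d : A × A → ℤ) (β : A × A) (w : List A) : ∀ (k : ℤ) (φ : Option A),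
    ((dQ d (dl β) k φ w : ℤ) : ZMod M) =
      ∑ u : ZMod M, ((k : ZMod M) - u) * ((el (cu d) β u φ w : ℤ) : ZMod M) := by
  classical
  induction w with
  | nil =>
    intro k φ
    rw [dQ, Int.cast_zero]
    refine (Finset.sum_eq_zero fun u _ => ?_).symm
    rw [el, Int.cast_zero, mul_zero]
  | cons x w ih =>
    intro k φ
    cases φ with
    | none =>
      rw [dQ, ih]
      rfl
    | some y =>
      rw [dQ]
      have h1 : ∀ u : ZMod M, ((k : ZMod M) - u) * ((el (cu d) β u (some y) (x :: w) : ℤ) : ZMod M) =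
          (if u = 0 then (if β = (y, x) then (k : ZMod M) else 0) else 0) +
          ((k : ZMod M) - u) *
            ((el (cu d) β (u + ((d (y, x) : ℤ) : ZMod M)) none w : ℤ) : ZMod M) := by
        intro u
        rw [el, Int.cast_add, mul_add]
        congr 1
        by_cases h2 : u = 0
        · subst h2
          by_cases h3 : β = (y, x)
          · rw [if_pos ⟨h3, rfl⟩, if_pos rfl, if_pos h3, sub_zero, Int.cast_one, mul_one]
          · rw [if_neg (fun h => h3 h.1), if_pos rfl, if_neg h3, Int.cast_zero, mul_zero]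
        · rw [if_neg (fun h => h2 h.2), if_neg h2, Int.cast_zero, mul_zero]
      rw [Finset.sum_congr rfl fun u _ => h1 u, Finset.sum_add_distrib, Finset.sum_ite_eq',
        if_pos (Finset.mem_univ _), Int.cast_add, ih]
      congr 1
      · by_cases h3 : β = (y, x)
        · rw [if_pos h3, h3, dl_self, one_mul]
        · rw [if_neg h3, dl_ne h3, zero_mul, Int.cast_zero]
      · rw [← Equiv.sum_comp (Equiv.addRight ((d (y, x) : ℤ) : ZMod M))]
        refine Finset.sum_congr rfl fun u _ => ?_
        rw [Equiv.coe_addRight, Int.cast_add]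
        congr 1
        ring

end sys

end Vale.Agent.P329.H559.C2
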