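import Vale.Agent.P329.H559.Kw

/-!
# P329 / pair counts of blocks with visible clock: definitions
-/

set_option linter.all false

namespace Vale.Agent.P329.H559.C2

open Vale.Agent.P329

/-- blocks of `h` letters, most recent letter first -/
abbrev Blk (α : Type) (h : ℕ) : Type := {u : List α // u.length = h}

/-- incomplete blocks, most recent letter first -/
abbrev Par (α : Type) (h : ℕ) : Type := {K : List α // K.length < h}

instance (α : Type) [Finite α] (h : ℕ) : Finite (Blk α h) :=
  (List.finite_length_eq α h).to_subtype

instance (α : Type) [Finite α] (h : ℕ) : Finite (Par α h) :=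
  (List.finite_length_lt α h).to_subtype

variable {α : Type} {h : ℕ}

/-- the empty incomplete block -/
def p0 (K : Par α h) : Par α h := ⟨[], Nat.lt_of_le_of_lt (Nat.zero_le _) K.2⟩

/-- the incomplete block after one letter -/
def nxt (K : Par α h) (b : α) : Par α h :=
  if e : K.1.length + 1 < h then ⟨b :: K.1, e⟩ else p0 K

/-- blocks completed while reading a word after an incomplete block -/
def ps : Par α h → List α → List (Blk α h)
  | _, [] => []
  | K, b :: w => if e : K.1.length + 1 = h then ⟨b :: K.1, e⟩ :: ps (nxt K b) w
      else ps (nxt K b) w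

/-- incomplete block at the end -/
def rm : Par α h → List α → Par α h
  | K, [] => K
  | K, b :: w => rm (nxt K b) w

open Classical in
/-- number of letters `a` -/
noncomputable def ct {A : Type} (a : A) : List A → ℤ
  | [] => 0
  | x :: w => (if x = a then 1 else 0) + ct a w

open Classical in
/-- number of pairs of a letter `a` and a later letter `b`, plus `k` times the number of `b` -/
noncomputable def pcA {A : Type} (a b : A) : ℤ → List A → ℤ
  | _, [] => 0
  | k, x :: w => (if x = b then k else 0) + pcA a b (k + if x = a then 1 else 0) w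

/-- number of pairs of a letter `a` and a later letter `b` -/
noncomputable def pc {A : Type} (a b : A) (w : List A) : ℤ := pcA a b 0 w

/-- sum of `f i * g j` over pairs of positions `i < j` -/
def PP {m : ℕ} (f g : List α → α → ZMod m) : List α → ZMod m
  | [] => 0
  | b :: X => PP f g X + g X b * SS f X

/-- **pair counts of blocks are known** -/
def PairStmt : Prop :=
  ∀ (q : ℕ) (α : Type) [Finite α] (K : Par α (2 ^ q)) (γ β : Blk α (2 ^ q)),
    KnZ fun w : List α => pc γ β (ps K w)

/-- **pair sums of functions of the window and of the clock are known** -/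
def PPStmt : Prop :=
  ∀ (m : ℕ), m ≠ 0 → ∀ (α : Type) [Finite α] (l c : ℕ) (f g : List α → α → ZMod m),
    (∀ X Y b, X.length % 2 ^ l = Y.length % 2 ^ l → X.take c = Y.take c →
      f X b = f Y b ∧ g X b = g Y b) → Kn fun w : List α => PP f g w.reverse

/-- class two -/
def Cl2Stmt : Prop :=
  ∀ (G : Type) [Group G] [Finite G], Odd (Nat.card G) →
    (∀ a b c : G, a * b * a⁻¹ * b⁻¹ * c = c * (a * b * a⁻¹ * b⁻¹)) → ∀ l, H434.CtxK (2 ^ l) G

end Vale.Agent.P329.H559.C2
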