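import Vale.Agent.P329.H559.C2.Lvl
import Vale.Agent.P329.H487.C2H
import Vale.Agent.P329.H672.C2.P
import Vale.Agent.P329.H433.Cl2All
import Vale.Agent.P329.H112.Mon

/-!
# P329 / context products in nilpotent groups of class two, with clocks modulo powers of two
-/

set_option linter.all false

namespace Vale.Agent.P329.H559.C2

open Vale.Agent.P329

theorem pair : PairStmt := pair_of H487.pairH

theorem locK_two (q : ℕ) : H434.LocK (2 ^ q) := by
  haveI : Fact (2 : ℕ).Prime := ⟨Nat.prime_two⟩
  refine H434.LocK.of_ctx (p := 2) (H434.CtxK.clock_p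
    (fun K _ _ hK => H434.CtxK.of_core (H112.core_all 2 Nat.prime_two) K hK) ?_ q)
  refine IsPGroup.of_card (n := 1) ?_
  rw [Nat.card_congr (Multiplicative.toAdd : Multiplicative (ZMod 2) ≃ ZMod 2),
    Nat.card_zmod, pow_one]

theorem pp : PPStmt :=
  H672.C2.pp_of locK_two (fun q α _ K γ => kz_ct γ K) pair

/-- **context products in nilpotent groups of class two, with clocks modulo powers of two** -/
theorem ctxK_c2 {G : Type} [Group G] [Finite G]
    (hc : ∀ a b c : G, a * b * a⁻¹ * b⁻¹ * c = c * (a * b * a⁻¹ * b⁻¹)) (l : ℕ) :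
    H434.CtxK (2 ^ l) G :=
  H433.cl2_all (fun K _ _ hK => H434.CtxK.of_core (H112.core_all 2 Nat.prime_two) K hK)
    (H433.cl2_of pp) hc l

end Vale.Agent.P329.H559.C2
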