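import Vale.Agent.P329.H559.C2.Pairs

/-!
# P329 / pair counts of blocks: from blocks of `2 ^ q` letters to blocks of `2 ^ (q + 1)` letters
-/

set_option linter.all false

namespace Vale.Agent.P329.H559.C2

open Vale.Agent.P329

section lin

variable {A : Type}

theorem dd_add (d₁ d₂ : A × A → ℤ) (w : List A) : ∀ φ : Option A,
    dd (cu (d₁ + d₂)) φ w = dd (cu d₁) φ w + dd (cu d₂) φ w := by
  induction w with
  | nil => intro φ; rw [dd, dd, dd, add_zero]
  | cons x w ih =>
    intro φ
    cases φ with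
    | none => rw [dd, dd, dd, ih]
    | some y =>
      rw [dd, dd, dd, ih]
      change d₁ (y, x) + d₂ (y, x) + _ = d₁ (y, x) + _ + (d₂ (y, x) + _)
      ring

theorem dd_smul (c : ℤ) (d : A × A → ℤ) (w : List A) : ∀ φ : Option A,
    dd (cu (c • d)) φ w = c * dd (cu d) φ w := by
  induction w with
  | nil => intro φ; rw [dd, dd, mul_zero]
  | cons x w ih =>
    intro φ
    cases φ with
    | none => rw [dd, dd, ih]
    | some y =>
      rw [dd, dd, ih]
      change c * d (y, x) + _ = c * (d (y, x) + _)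
      ring

/-- the drift as a linear map -/
def LD (φ : Option A) (w : List A) : (A × A → ℤ) →ₗ[ℤ] ℤ where
  toFun d := dd (cu d) φ w
  map_add' d₁ d₂ := dd_add d₁ d₂ w φ
  map_smul' c d := dd_smul c d w φ

theorem dd_expand [Fintype A] (φ : Option A) (w : List A) (d : A × A → ℤ) :
    dd (cu d) φ w = ∑ γ : A × A, d γ * dd (cu (dl γ)) φ w := by
  classical
  have h1 : d = ∑ γ : A × A, d γ • (dl γ) := by
    funext β
    rw [Finset.sum_apply, Finset.sum_eq_single β]
    · rw [Pi.smul_apply, dl_self, smul_eq_mul, mul_one]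
    · intro γ _ h
      rw [Pi.smul_apply, dl_ne h, smul_eq_mul, mul_zero]
    · intro h; exact absurd (Finset.mem_univ _) h
  change LD φ w d = ∑ γ : A × A, d γ * LD φ w (dl γ)
  conv_lhs => rw [h1]
  rw [map_sum]
  refine Finset.sum_congr rfl fun γ _ => ?_
  rw [map_smul, smul_eq_mul]

open Classical in
/-- indicator of a letter -/
noncomputable def i1 (a x : A) : ℤ := if x = a then 1 else 0

/-- number of letters `a` in a pair -/
noncomputable def nl (a : A) : A × A → ℤ := fun p => i1 a p.1 + i1 a p.2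

/-- indicator of a pending letter -/
noncomputable def ip (a : A) : Option A → ℤ
  | none => 0
  | some y => i1 a y

theorem pcA_cons (a b : A) (k : ℤ) (x : A) (w : List A) :
    pcA a b k (x :: w) = i1 b x * k + pcA a b (k + i1 a x) w := by
  classical
  rw [pcA]
  unfold i1
  by_cases h : x = b
  · rw [if_pos h, if_pos h, one_mul]
  · rw [if_neg h, if_neg h, zero_mul]

theorem pcA_eq (a b : A) (w : List A) : ∀ k : ℤ, pcA a b k w = pc a b w + k * ct b w := by
  induction w with
  | nil => intro k; rw [pc, pcA, pcA, ct, mul_zero, add_zero]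
  | cons x w ih =>
    intro k
    rw [pc, pcA_cons, pcA_cons, ih, ih (0 + i1 a x), ct]
    change _ = _ + k * (i1 b x + ct b w)
    ring

theorem dl_pair (g b y x : A) : dl (g, b) (y, x) = i1 g y * i1 b x := by
  classical
  unfold i1
  by_cases h1 : y = g
  · by_cases h2 : x = b
    · rw [if_pos h1, if_pos h2, h1, h2, dl_self]; rfl
    · rw [if_neg h2, mul_zero]
      exact dl_ne fun h => h2 (congrArg Prod.snd h).symm
  · rw [if_neg h1, zero_mul]
    exact dl_ne fun h => h1 (congrArg Prod.fst h).symm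

theorem pcA_dQ (g b : A) (w : List A) : ∀ (k : ℤ) (φ : Option A),
    pcA g b (k + ip g φ) w + ip b φ * k = dQ (nl g) (nl b) k φ w + dd (cu (dl (g, b))) φ w +
      ip b (pn φ w) * (k + dd (cu (nl g)) φ w) := by
  induction w with
  | nil => intro k φ; rw [pcA, dQ, dd, dd, pn]; ring
  | cons x w ih =>
    intro k φ
    cases φ with
    | none =>
      have h1 := ih k (some x)
      rw [pcA_cons, dQ, dd, dd, pn]
      change i1 b x * (k + 0) + pcA g b (k + 0 + i1 g x) w + 0 * k = _
      rw [← h1]
      change _ = pcA g b (k + i1 g x) w + i1 b x * k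
      rw [add_zero]
      ring
    | some y =>
      have h1 := ih (k + nl g (y, x)) none
      rw [pcA_cons, dQ, dd, dd, pn]
      change i1 b x * (k + i1 g y) + pcA g b (k + i1 g y + i1 g x) w + i1 b y * k =
        nl b (y, x) * k + dQ (nl g) (nl b) (k + nl g (y, x)) none w +
          (dl (g, b) (y, x) + dd (cu (dl (g, b))) none w) +
          ip b (pn none w) * (k + (nl g (y, x) + dd (cu (nl g)) none w))
      change pcA g b (k + nl g (y, x) + 0) w + 0 * (k + nl g (y, x)) = _ at h1
      have h2 : k + nl g (y, x) + 0 = k + i1 g y + i1 g x := by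
        change k + (i1 g y + i1 g x) + 0 = _
        ring
      rw [h2] at h1
      rw [dl_pair]
      have h3 : nl b (y, x) = i1 b y + i1 b x := rfl
      rw [h3]
      linear_combination h1

theorem ct_dd (b : A) (w : List A) : ∀ φ : Option A,
    ct b w + ip b φ = dd (cu (nl b)) φ w + ip b (pn φ w) := by
  induction w with
  | nil => intro φ; rw [ct, dd, pn]
  | cons x w ih =>
    intro φ
    cases φ with
    | none =>
      have h1 := ih (some x)
      rw [dd, pn, ← h1]
      change i1 b x + ct b w + 0 = ct b w + i1 b x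
      ring
    | some y =>
      have h1 := ih none
      rw [dd, pn]
      change i1 b x + ct b w + i1 b y = i1 b y + i1 b x + dd (cu (nl b)) none w + ip b (pn none w)
      change ct b w + 0 = _ at h1
      linear_combination h1

end lin

section known

variable {α : Type} [Finite α] {q : ℕ}

theorem kz_lin (f : Blk α (2 ^ q) × Blk α (2 ^ q) → ℤ) (φ : Option (Blk α (2 ^ q))) :
    KZ fun w => dd (cu f) φ w := by
  intro K
  haveI := Fintype.ofFinite (Blk α (2 ^ q))
  refine (KnZ.sum Finset.univ fun γ _ => (kz_num γ φ K).mul_left (f γ)).congr fun w => ?_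
  exact dd_expand φ (ps K w) f

theorem kz_pn (b : Blk α (2 ^ q)) (φ : Option (Blk α (2 ^ q))) :
    KZ fun w => ip b (pn φ w) := by
  classical
  intro K
  have h1 : Adm (fun _ : Blk α (2 ^ q) × Blk α (2 ^ q) => (1 : ℤ)) :=
    adm_A (fun _ _ => Or.inr (Or.inr rfl)) (fun _ => 0) fun _ _ => rfl
  obtain ⟨h1, c, h2⟩ := h1
  have h3 := (KB.of_fin (nocyc2 (M := 1) (T := fun _ _ => False) h1 c h2)
    (no_odd (M := 1) (T := fun _ _ => False) h1 c h2) (0, none) (0, φ) K)
  refine (KnZ.of_kn h3 fun x => ip b x.2).congr fun w => ?_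
  rw [fin_sp]

theorem kz_ct (b : Blk α (2 ^ q)) : KZ fun w => ct b w := by
  intro K
  refine ((kz_lin (nl b) none K).add (kz_pn b none K)).congr fun w => ?_
  have h1 := ct_dd b (ps K w) none
  rw [← h1]
  change ct b (ps K w) = ct b (ps K w) + 0
  rw [add_zero]

/-- two squares -/
theorem kz_loop (g b : Blk α (2 ^ q)) (h : KZ (pc g b)) (φ : Option (Blk α (2 ^ q))) :
    KZ fun w => dQ (dl (g, g)) (dl (b, b)) 0 φ w := by
  classical
  intro K
  haveI := Fintype.ofFinite (Blk α (2 ^ q))
  -- the full sum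
  have h1 : KnZ fun w => dQ (nl g) (nl b) 0 φ (ps K w) := by
    refine ((((h K).add ((kz_ct b K).mul_left (ip g φ))).sub (kz_num (g, b) φ K)).sub
      ((kz_pn b φ K).mul (kz_lin (nl g) φ K))).congr fun w => ?_
    have h2 := pcA_dQ g b (ps K w) 0 φ
    rw [pcA_eq] at h2
    linear_combination -h2
  have h2 : KnZ fun w => ∑ γ : Blk α (2 ^ q) × Blk α (2 ^ q), ∑ β : Blk α (2 ^ q) × Blk α (2 ^ q),
      (if γ = (g, g) ∧ β = (b, b) then 0 else
        nl g γ * (nl b β * dQ (dl γ) (dl β) 0 φ (ps K w))) := by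
    refine KnZ.sum Finset.univ fun γ _ => KnZ.sum Finset.univ fun β _ => ?_
    by_cases h3 : γ = (g, g) ∧ β = (b, b)
    · refine (KnZ.const 0).congr fun w => ?_
      rw [if_pos h3]
    by_cases h4 : γ.1 ≠ γ.2 ∨ β.1 ≠ β.2
    · refine (((kz_pair h4 φ K).mul_left (nl b β)).mul_left (nl g γ)).congr fun w => ?_
      rw [if_neg h3]
    · push Not at h4
      obtain ⟨h5, h6⟩ := h4
      refine (KnZ.const 0).congr fun w => ?_
      rw [if_neg h3]
      by_cases h7 : γ.1 = g
      · have h8 : γ = (g, g) := Prod.ext h7 (h5 ▸ h7)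
        have h9 : ¬ β.1 = b := fun h9 => h3 ⟨h8, Prod.ext h9 (h6 ▸ h9)⟩
        have h10 : nl b β = 0 := by
          unfold nl i1
          rw [if_neg h9, if_neg (h6 ▸ h9)]
          rfl
        rw [h10, zero_mul, mul_zero]
      · have h10 : nl g γ = 0 := by
          unfold nl i1
          rw [if_neg h7, if_neg (h5 ▸ h7)]
          rfl
        rw [h10, zero_mul]
  refine KnZ.div (c := 4) (by norm_num) ((h1.sub h2).congr fun w => ?_)
  rw [LQ_expand φ (ps K w) (nl g) (nl b), ← Finset.sum_sub_distrib]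
  have h3 : ∀ γ : Blk α (2 ^ q) × Blk α (2 ^ q),
      (∑ β : Blk α (2 ^ q) × Blk α (2 ^ q), nl g γ * (nl b β * dQ (dl γ) (dl β) 0 φ (ps K w))) -
      (∑ β : Blk α (2 ^ q) × Blk α (2 ^ q), (if γ = (g, g) ∧ β = (b, b) then 0 else
        nl g γ * (nl b β * dQ (dl γ) (dl β) 0 φ (ps K w)))) =
      if γ = (g, g) then 4 * dQ (dl (g, g)) (dl (b, b)) 0 φ (ps K w) else 0 := by
    intro γ
    rw [← Finset.sum_sub_distrib]
    by_cases h4 : γ = (g, g)
    · rw [if_pos h4, Finset.sum_eq_single (b, b)]
      · rw [if_pos ⟨h4, rfl⟩, h4]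
        have h5 : nl g (g, g) = 2 := by
          unfold nl i1
          rw [if_pos rfl]
          rfl
        have h6 : nl b (b, b) = 2 := by
          unfold nl i1
          rw [if_pos rfl]
          rfl
        rw [h5, h6]
        ring
      · intro β _ h5
        rw [if_neg (fun h6 => h5 h6.2), sub_self]
      · intro h5; exact absurd (Finset.mem_univ _) h5
    · rw [if_neg h4]
      refine Finset.sum_eq_zero fun β _ => ?_
      rw [if_neg (fun h6 => h4 h6.1), sub_self]
  rw [Finset.sum_congr rfl fun γ _ => h3 γ, Finset.sum_ite_eq', if_pos (Finset.mem_univ _)]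
  push_cast
  ring

/-- all pair counts of pairs of blocks -/
theorem kz_all (h : ∀ g b : Blk α (2 ^ q), KZ (pc g b)) (γ β : Blk α (2 ^ q) × Blk α (2 ^ q))
    (φ : Option (Blk α (2 ^ q))) : KZ fun w => dQ (dl γ) (dl β) 0 φ w := by
  by_cases h1 : γ.1 ≠ γ.2 ∨ β.1 ≠ β.2
  · exact kz_pair h1 φ
  · push Not at h1
    have h2 : γ = (γ.1, γ.1) := Prod.ext rfl h1.1.symm
    have h3 : β = (β.1, β.1) := Prod.ext rfl h1.2.symm
    rw [h2, h3]
    exact kz_loop _ _ (h _ _) φ

/-! ### halves -/

theorem two_pow_succ' : 2 ^ (q + 1) = 2 ^ q + 2 ^ q := by rw [pow_succ]; ring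

/-- the older and the newer half of a block -/
def hv (u : Blk α (2 ^ (q + 1))) : Blk α (2 ^ q) × Blk α (2 ^ q) :=
  (⟨u.1.drop (2 ^ q), by rw [List.length_drop, u.2, two_pow_succ', Nat.add_sub_cancel]⟩,
    ⟨u.1.take (2 ^ q), by
      rw [List.length_take, u.2, two_pow_succ', Nat.min_eq_left (Nat.le_add_left _ _)]⟩)

theorem hv_inj {u v : Blk α (2 ^ (q + 1))} (h : hv u = hv v) : u = v := by
  have h1 := congrArg (fun p => p.1.1) h
  have h2 := congrArg (fun p => p.2.1) h
  refine Subtype.ext ?_
  rw [← List.take_append_drop (2 ^ q) u.1, ← List.take_append_drop (2 ^ q) v.1]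
  change u.1.drop (2 ^ q) = v.1.drop (2 ^ q) at h1
  change u.1.take (2 ^ q) = v.1.take (2 ^ q) at h2
  rw [h1, h2]

theorem hv_eq {K : Par α (2 ^ q)} {y : Blk α (2 ^ q)} {K' : List α} (b : α)
    (e : K.1.length + 1 = 2 ^ q) (hK : K' = K.1 ++ y.1) (e' : (b :: K').length = 2 ^ (q + 1)) :
    hv (⟨b :: K', e'⟩ : Blk α (2 ^ (q + 1))) = (y, ⟨b :: K.1, e⟩) := by
  subst hK
  have h1 : b :: (K.1 ++ y.1) = (b :: K.1) ++ y.1 := rfl
  refine Prod.ext (Subtype.ext ?_) (Subtype.ext ?_)
  · change (b :: (K.1 ++ y.1)).drop (2 ^ q) = y.1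
    rw [h1, List.drop_append_of_le_length (by rw [List.length_cons]; omega),
      List.drop_of_length_le (by rw [List.length_cons]; omega), List.nil_append]
  · change (b :: (K.1 ++ y.1)).take (2 ^ q) = b :: K.1
    rw [h1, List.take_append_of_le_length (by rw [List.length_cons]; omega),
      List.take_of_length_le (by rw [List.length_cons]; omega)]

/-- the incomplete block in terms of half blocks -/
def Rl (K' : Par α (2 ^ (q + 1))) : Option (Blk α (2 ^ q)) → Par α (2 ^ q) → Prop
  | none, K => K'.1 = K.1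
  | some y, K => K'.1 = K.1 ++ y.1

theorem lvl (γ β : Blk α (2 ^ (q + 1))) (w : List α) : ∀ (K' : Par α (2 ^ (q + 1)))
    (φ : Option (Blk α (2 ^ q))) (K : Par α (2 ^ q)) (k : ℤ), Rl K' φ K →
      pcA γ β k (ps K' w) = dQ (dl (hv γ)) (dl (hv β)) k φ (ps K w) := by
  induction w with
  | nil => intro K' φ K k hR; rw [ps, ps, pcA, dQ]
  | cons b w ih =>
    intro K' φ K k hR
    have hp := two_pow_succ' (q := q)
    have hp0 : 0 < 2 ^ q := pow_pos (by norm_num) _
    by_cases e : K.1.length + 1 = 2 ^ q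
    · cases φ with
      | none =>
        have hR' : K'.1 = K.1 := hR
        have e' : ¬ K'.1.length + 1 = 2 ^ (q + 1) := by rw [hR']; omega
        rw [ps_part b w e', ps_full b w e, dQ]
        refine ih _ _ _ _ ?_
        change (nxt K' b).1 = (nxt K b).1 ++ (b :: K.1)
        rw [nxt_part b e', nxt_full b e, hR']
        rfl
      | some y =>
        have hR' : K'.1 = K.1 ++ y.1 := hR
        have hy := y.2
        have e' : K'.1.length + 1 = 2 ^ (q + 1) := by
          rw [hR', List.length_append]; omega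
        rw [ps_full b w e', ps_full b w e, pcA_cons, dQ]
        have h1 := hv_eq b e hR' e'
        have h2 : ∀ ρ : Blk α (2 ^ (q + 1)),
            i1 ρ (⟨b :: K'.1, e'⟩ : Blk α (2 ^ (q + 1))) = dl (hv ρ) (y, ⟨b :: K.1, e⟩) := by
          intro ρ
          classical
          unfold i1
          by_cases h3 : (⟨b :: K'.1, e'⟩ : Blk α (2 ^ (q + 1))) = ρ
          · rw [if_pos h3, ← h3, h1, dl_self]
          · rw [if_neg h3]
            exact (dl_ne fun h4 => h3 (hv_inj (h1.trans h4.symm))).symm
        rw [h2, h2]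
        congr 1
        refine ih _ _ _ _ ?_
        change (nxt K' b).1 = (nxt K b).1
        rw [nxt_full b e', nxt_full b e]
    · have hKl := K.2
      have e' : ¬ K'.1.length + 1 = 2 ^ (q + 1) := by
        cases φ with
        | none =>
          have hR' : K'.1 = K.1 := hR
          rw [hR']; omega
        | some y =>
          have hR' : K'.1 = K.1 ++ y.1 := hR
          have hy := y.2
          rw [hR', List.length_append]; omega
      rw [ps_part b w e', ps_part b w e]
      refine ih _ _ _ _ ?_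
      cases φ with
      | none =>
        have hR' : K'.1 = K.1 := hR
        change (nxt K' b).1 = (nxt K b).1
        rw [nxt_part b e', nxt_part b e, hR']
      | some y =>
        have hR' : K'.1 = K.1 ++ y.1 := hR
        change (nxt K' b).1 = (nxt K b).1 ++ y.1
        rw [nxt_part b e', nxt_part b e, hR']
        rfl

theorem rl_ex (K' : Par α (2 ^ (q + 1))) :
    ∃ (φ : Option (Blk α (2 ^ q))) (K : Par α (2 ^ q)), Rl K' φ K := by
  have hp := two_pow_succ' (q := q)
  have hK := K'.2
  by_cases h : K'.1.length < 2 ^ q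
  · exact ⟨none, ⟨K'.1, h⟩, rfl⟩
  · refine ⟨some ⟨K'.1.drop (K'.1.length - 2 ^ q), ?_⟩, ⟨K'.1.take (K'.1.length - 2 ^ q), ?_⟩, ?_⟩
    · rw [List.length_drop]; omega
    · rw [List.length_take]; omega
    · exact (List.take_append_drop _ _).symm

end known

/-- **pair counts of blocks are known** -/
theorem pair_of (hH : ∀ (A : Type) [Finite A] (a b : A), KnZ fun w : List A => pc a b w) :
    PairStmt := by
  intro q α hα
  induction q with
  | zero =>
    intro K γ β
    have h1 : ∀ (K : Par α (2 ^ 0)) (w : List α),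
        ps K w = w.map fun b => (⟨[b], rfl⟩ : Blk α (2 ^ 0)) := by
      intro K w
      induction w generalizing K with
      | nil => rfl
      | cons b w ih =>
        have hK : K.1 = [] := by
          have h0 : K.1.length < 1 := K.2
          exact List.length_eq_zero_iff.mp (by omega)
        have e : K.1.length + 1 = 2 ^ 0 := by rw [hK]; rfl
        rw [ps_full b w e, ih, List.map_cons]
        congr 1
        refine Subtype.ext ?_
        change b :: K.1 = [b]
        rw [hK]
    have h2 : ∀ u : Blk α (2 ^ 0), ∃ a : α, u = ⟨[a], rfl⟩ := by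
      rintro ⟨u, hu⟩
      obtain ⟨a, rfl⟩ := List.length_eq_one_iff.mp (by rw [hu, pow_zero])
      exact ⟨a, rfl⟩
    obtain ⟨a, rfl⟩ := h2 γ
    obtain ⟨b, rfl⟩ := h2 β
    have h3 : ∀ (w : List α) (k : ℤ), pcA (⟨[a], rfl⟩ : Blk α (2 ^ 0)) ⟨[b], rfl⟩ k
        (w.map fun b => (⟨[b], rfl⟩ : Blk α (2 ^ 0))) = pcA a b k w := by
      have h4 : ∀ x y : α, i1 (⟨[x], rfl⟩ : Blk α (2 ^ 0)) ⟨[y], rfl⟩ = i1 x y := by
        intro x y
        classical
        unfold i1
        by_cases h : y = x
        · rw [if_pos h, if_pos (by rw [h])]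
        · rw [if_neg h, if_neg (fun h' => h (List.cons.inj (congrArg Subtype.val h')).1)]
      intro w
      induction w with
      | nil => intro k; rfl
      | cons x w ih =>
        intro k
        rw [List.map_cons, pcA_cons, pcA_cons, h4, h4, ih]
    refine (hH α a b).congr fun w => ?_
    rw [h1, pc, pc, h3]
  | succ q ih =>
    intro K' γ β
    obtain ⟨φ, K, hR⟩ := rl_ex K'
    refine (kz_all (fun g b K => ih K g b) (hv γ) (hv β) φ K).congr fun w => ?_
    rw [pc]
    exact lvl γ β w K' φ K 0 hR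

end Vale.Agent.P329.H559.C2
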