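import Vale.Agent.P329.H559.C2.Count

/-!
# P329 / pair counts of pairs of blocks are known, except for two squares
-/

set_option linter.all false

namespace Vale.Agent.P329.H559.C2

open Vale.Agent.P329

/-! ### colourings -/

theorem colour {A : Type} {b₁ b₂ g₁ g₂ : A} (hb : b₁ ≠ b₂) (hg : g₁ ≠ g₂) :
    ∃ c : A → ℕ, (1 + c b₁ + c b₂) % 2 = 0 ∧ (1 + c g₁ + c g₂) % 2 = 0 := by
  classical
  by_cases h1 : b₁ = g₁
  · refine ⟨fun x => if x = b₁ then 1 else 0, ?_, ?_⟩
    · dsimp only; rw [if_pos rfl, if_neg (Ne.symm hb)]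
    · dsimp only; rw [if_pos h1.symm, if_neg (fun h => hg (by rw [h, h1]))]
  by_cases h2 : b₁ = g₂
  · refine ⟨fun x => if x = b₁ then 1 else 0, ?_, ?_⟩
    · dsimp only; rw [if_pos rfl, if_neg (Ne.symm hb)]
    · dsimp only; rw [if_pos h2.symm, if_neg (fun h => h1 h.symm)]
  by_cases h3 : b₂ = g₁
  · refine ⟨fun x => if x = b₂ then 1 else 0, ?_, ?_⟩
    · dsimp only; rw [if_pos rfl, if_neg hb]
    · dsimp only; rw [if_pos h3.symm, if_neg (fun h => hg (by rw [h, h3]))]
  by_cases h4 : b₂ = g₂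
  · refine ⟨fun x => if x = b₂ then 1 else 0, ?_, ?_⟩
    · dsimp only; rw [if_pos rfl, if_neg hb]
    · dsimp only; rw [if_pos h4.symm, if_neg (fun h => h3 h.symm)]
  refine ⟨fun x => (if x = b₁ then 1 else 0) + (if x = g₁ then 1 else 0), ?_, ?_⟩
  · dsimp only
    rw [if_pos rfl, if_neg h1, if_neg (Ne.symm hb), if_neg h3]
  · dsimp only
    rw [if_pos rfl, if_neg (fun h => h1 h.symm), if_neg (Ne.symm hg), if_neg (fun h => h2 h.symm)]

section known

variable {α : Type} [Finite α] {q : ℕ}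

/-- admissible kicks -/
def Adm {A : Type} (d : A × A → ℤ) : Prop :=
  (∀ y x, cu d y x = -1 ∨ cu d y x = 0 ∨ cu d y x = 1) ∧
    ∃ c : A → ℕ, ∀ (φ : Option A) (w : List A), dd (cu d) φ w = 0 → np φ w % 2 = cs c φ w % 2

theorem kz_el {d : Blk α (2 ^ q) × Blk α (2 ^ q) → ℤ} (hd : Adm d)
    {β : Blk α (2 ^ q) × Blk α (2 ^ q)} (hβ : d β = 0) {M : ℕ} [NeZero M] (u : ZMod M)
    (φ : Option (Blk α (2 ^ q))) : KZ fun w => el (cu d) β u φ w := by
  intro K
  obtain ⟨h1, c, h2⟩ := hd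
  have h3 := KZ.of_cnt (nocyc2 (M := M) (T := fun y x => β = (y, x)) h1 c h2)
    (no_odd (M := M) (T := fun y x => β = (y, x)) h1 c h2) (0, none) (u, φ) K
  have h4 := KZ.of_cnt (nocyc2 (M := M) (T := fun _ _ => False) h1 c h2)
    (no_odd (M := M) (T := fun _ _ => False) h1 c h2) (0, none) (u, φ) K
  refine (h3.sub h4).congr fun w => ?_
  exact (el_eq (cu d) β hβ _ u φ).symm

theorem kz_dQ {d : Blk α (2 ^ q) × Blk α (2 ^ q) → ℤ} (hd : Adm d)
    {β : Blk α (2 ^ q) × Blk α (2 ^ q)} (hβ : d β = 0) (φ : Option (Blk α (2 ^ q))) :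
    KZ fun w => dQ d (dl β) 0 φ w := by
  intro K n hn
  haveI : NeZero n := ⟨hn.ne'⟩
  have h1 := kn_sum (α := α) (A := ZMod n) (Finset.univ : Finset (ZMod n)) fun u _ =>
    (kz_el hd hβ u φ K n hn).comp fun x => (((0 : ℤ) : ZMod n) - u) * x
  intro v
  refine Eq.mp (congrArg (SH 1) ?_) (h1 v)
  ext w
  change (∑ u : ZMod n, (((0 : ℤ) : ZMod n) - u) * ((el (cu d) β u φ (ps K w) : ℤ) : ZMod n)) = v ↔
    ((dQ d (dl β) 0 φ (ps K w) : ℤ) : ZMod n) = v
  rw [dQ_el]

theorem kz_dd {d : Blk α (2 ^ q) × Blk α (2 ^ q) → ℤ} (hd : Adm d)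
    (φ : Option (Blk α (2 ^ q))) : KZ fun w => dd (cu d) φ w := by
  intro K n hn
  haveI : NeZero n := ⟨hn.ne'⟩
  obtain ⟨h1, c, h2⟩ := hd
  have h3 := (KB.of_fin (nocyc2 (M := n) (T := fun _ _ => False) h1 c h2)
    (no_odd (M := n) (T := fun _ _ => False) h1 c h2) (0, none) (0, φ) K).comp fun x => x.1
  intro v
  refine Eq.mp (congrArg (SH 1) ?_) (h3 v)
  ext w
  have h4 := congrArg Prod.fst (fin_sp (M := n) (cu d) (fun _ _ => False) (ps K w) 0 φ)
  rw [zero_add] at h4
  exact ⟨fun h5 => h4.symm.trans h5, fun h5 => h4.trans h5⟩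

/-! ### admissible kicks -/

theorem adm_A {A : Type} {d : A × A → ℤ}
    (h1 : ∀ y x, cu d y x = -1 ∨ cu d y x = 0 ∨ cu d y x = 1) (c : A → ℕ)
    (h2 : ∀ y x, (cu d y x - (1 + c y + c x)) % 2 = 0) : Adm d :=
  ⟨h1, c, fun φ w h => typeA' h2 φ w h⟩

theorem adm_B {A : Type} {d : A × A → ℤ}
    (h1 : ∀ y x, cu d y x = 0 ∨ cu d y x = 1) (c : A → ℕ)
    (h2 : ∀ y x, cu d y x = 0 → (1 + c y + c x) % 2 = 0) : Adm d := by
  refine ⟨fun y x => Or.inr (h1 y x), c, fun φ w h => (typeB (fun y x => ?_) h2 w φ).2 h⟩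
  rcases h1 y x with h | h <;> rw [h]
  exact zero_le_one

/-- counts of pairs of blocks -/
theorem kz_num (γ : Blk α (2 ^ q) × Blk α (2 ^ q)) (φ : Option (Blk α (2 ^ q))) :
    KZ fun w => dd (cu (dl γ)) φ w := by
  classical
  have h1 : Adm (fun _ : Blk α (2 ^ q) × Blk α (2 ^ q) => (1 : ℤ)) :=
    adm_A (fun _ _ => Or.inr (Or.inr rfl)) (fun _ => 0) fun _ _ => rfl
  have h2 : Adm (fun β : Blk α (2 ^ q) × Blk α (2 ^ q) => if γ = β then (-1 : ℤ) else 1) := by
    refine adm_A (fun y x => ?_) (fun _ => 0) fun y x => ?_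
    · change (if γ = (y, x) then (-1 : ℤ) else 1) = -1 ∨ _
      by_cases h : γ = (y, x)
      · rw [if_pos h]; exact Or.inl rfl
      · right; right
        change (if γ = (y, x) then (-1 : ℤ) else 1) = 1
        rw [if_neg h]
    · change ((if γ = (y, x) then (-1 : ℤ) else 1) - _) % 2 = 0
      by_cases h : γ = (y, x)
      · rw [if_pos h]; rfl
      · rw [if_neg h]; rfl
  intro K
  have h3 := (kz_dd h1 φ K).sub (kz_dd h2 φ K)
  refine KnZ.div (c := 2) two_pos (h3.congr fun w => ?_)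
  generalize ps K w = z
  clear h3
  induction z generalizing φ with
  | nil => rfl
  | cons x z ih =>
    cases φ with
    | none => exact ih (some x)
    | some y =>
      have h4 := ih none
      change ((2 : ℕ) : ℤ) * (dl γ (y, x) + dd (cu (dl γ)) none z) =
        1 + dd _ none z - ((if γ = (y, x) then (-1 : ℤ) else 1) + dd _ none z)
      by_cases h : γ = (y, x)
      · rw [if_pos h, h, dl_self]
        rw [h] at h4
        linear_combination h4
      · rw [if_neg h, dl_ne h]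
        linear_combination h4

theorem dl_mul_self {A : Type} (γ : A × A) : dl γ * dl γ = dl γ := by
  funext β
  rw [Pi.mul_apply]
  by_cases h : γ = β
  · rw [h, dl_self, one_mul]
  · rw [dl_ne h, mul_zero]

theorem dl_mul_ne {A : Type} {γ β : A × A} (h : γ ≠ β) : dl γ * dl β = 0 := by
  funext ρ
  rw [Pi.mul_apply, Pi.zero_apply]
  by_cases h1 : γ = ρ
  · rw [dl_ne (fun h2 : β = ρ => h (h1.trans h2.symm)), mul_zero]
  · rw [dl_ne h1, zero_mul]

theorem dd_zero {A : Type} (w : List A) : ∀ φ : Option A, dd (cu (0 : A × A → ℤ)) φ w = 0 := by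
  induction w with
  | nil => intro φ; rfl
  | cons x w ih =>
    intro φ
    cases φ with
    | none => exact ih (some x)
    | some y => rw [dd, ih]; rfl

theorem knZ_mul {N M : List α → ℤ} (hN : KnZ N) (hM : KnZ M) : KnZ fun w => N w * M w :=
  KnZ.mul hN hM

/-- second pair not a square -/
theorem kz_one {γ β : Blk α (2 ^ q) × Blk α (2 ^ q)} (hβ : β.1 ≠ β.2)
    (φ : Option (Blk α (2 ^ q))) : KZ fun w => dQ (dl γ) (dl β) 0 φ w := by
  classical
  by_cases hγβ : γ = β
  · subst hγβ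
    intro K
    have h1 := kz_num γ φ K
    refine KnZ.div (c := 2) two_pos (((knZ_mul h1 h1).sub h1).congr fun w => ?_)
    have h2 := dQ_mul (dl γ) (dl γ) (ps K w) 0 0 φ
    rw [dl_mul_self] at h2
    push_cast
    linear_combination h2
  by_cases hγ : γ.1 = γ.2
  · -- kicks of type A
    let c : Blk α (2 ^ q) → ℕ := fun x => if x = β.1 then 1 else 0
    let e₁ : Blk α (2 ^ q) × Blk α (2 ^ q) → ℤ := fun p => if c p.1 = c p.2 then 1 else 0
    let e₂ : Blk α (2 ^ q) × Blk α (2 ^ q) → ℤ := fun p => e₁ p - 2 * dl γ p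
    have hc : ∀ x, c x = 0 ∨ c x = 1 := by
      intro x
      change (if x = β.1 then 1 else 0) = 0 ∨ (if x = β.1 then 1 else 0) = 1
      by_cases h : x = β.1
      · rw [if_pos h]; exact Or.inr rfl
      · rw [if_neg h]; exact Or.inl rfl
    have a1 : Adm e₁ := by
      refine adm_A (fun y x => ?_) c fun y x => ?_
      · change (if c y = c x then (1 : ℤ) else 0) = -1 ∨ (if c y = c x then (1 : ℤ) else 0) = 0 ∨
          (if c y = c x then (1 : ℤ) else 0) = 1
        split <;> omega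
      · change ((if c y = c x then (1 : ℤ) else 0) - (1 + c y + c x)) % 2 = 0
        rcases hc y with h | h <;> rcases hc x with h' | h' <;> rw [h, h'] <;> rfl
    have hγe : e₁ γ = 1 := by
      change (if c γ.1 = c γ.2 then (1 : ℤ) else 0) = 1
      rw [hγ, if_pos rfl]
    have a2 : Adm e₂ := by
      refine adm_A (fun y x => ?_) c fun y x => ?_
      · change e₁ (y, x) - 2 * dl γ (y, x) = -1 ∨ e₁ (y, x) - 2 * dl γ (y, x) = 0 ∨
          e₁ (y, x) - 2 * dl γ (y, x) = 1
        by_cases h : γ = (y, x)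
        · rw [← h, hγe, dl_self]; left; rfl
        · rw [dl_ne h, mul_zero, sub_zero]
          change (if c y = c x then (1 : ℤ) else 0) = -1 ∨ (if c y = c x then (1 : ℤ) else 0) = 0 ∨
            (if c y = c x then (1 : ℤ) else 0) = 1
          split <;> omega
      · have h1 : ((if c y = c x then (1 : ℤ) else 0) - (1 + c y + c x)) % 2 = 0 := by
          rcases hc y with h | h <;> rcases hc x with h' | h' <;> rw [h, h'] <;> rfl
        change ((if c y = c x then (1 : ℤ) else 0) - 2 * dl γ (y, x) - (1 + c y + c x)) % 2 = 0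
        omega
    have b1 : e₁ β = 0 := by
      change (if c β.1 = c β.2 then (1 : ℤ) else 0) = 0
      rw [if_neg]
      change ¬ (if β.1 = β.1 then 1 else 0) = (if β.2 = β.1 then 1 else 0)
      rw [if_pos rfl, if_neg (Ne.symm hβ)]
      decide
    have b2 : e₂ β = 0 := by
      change e₁ β - 2 * dl γ β = 0
      rw [b1, dl_ne hγβ]; rfl
    intro K
    refine KnZ.div (c := 2) two_pos
      (((kz_dQ a1 b1 φ K).sub (kz_dQ a2 b2 φ K)).congr fun w => ?_)
    have h3 : e₁ = e₂ + (2 : ℤ) • dl γ := by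
      funext p
      rw [Pi.add_apply, Pi.smul_apply, smul_eq_mul]
      change e₁ p = e₁ p - 2 * dl γ p + 2 * dl γ p
      ring
    have h4 := dQ_add_left e₂ ((2 : ℤ) • dl γ) (dl β) (ps K w) 0 (2 * 0) φ
    rw [dQ_smul_left, mul_zero, add_zero, ← h3] at h4
    push_cast
    linear_combination -h4
  · -- kicks of type B
    obtain ⟨c, hc1, hc2⟩ := colour hβ hγ
    let e₁ : Blk α (2 ^ q) × Blk α (2 ^ q) → ℤ := fun p => 1 - dl β p
    let e₂ : Blk α (2 ^ q) × Blk α (2 ^ q) → ℤ := fun p => 1 - dl β p - dl γ p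
    have hdl : ∀ p : Blk α (2 ^ q) × Blk α (2 ^ q), (dl β p = 1 ∧ β = p ∧ dl γ p = 0) ∨
        (dl β p = 0 ∧ dl γ p = 1 ∧ γ = p) ∨ (dl β p = 0 ∧ dl γ p = 0) := by
      intro p
      by_cases h1 : β = p
      · left
        refine ⟨?_, h1, ?_⟩
        · rw [h1, dl_self]
        · exact dl_ne fun h2 => hγβ (h2.trans h1.symm)
      · right
        by_cases h2 : γ = p
        · left; exact ⟨dl_ne h1, by rw [h2, dl_self], h2⟩
        · right; exact ⟨dl_ne h1, dl_ne h2⟩
    have a1 : Adm e₁ := by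
      refine adm_B (fun y x => ?_) c fun y x h => ?_
      · change 1 - dl β (y, x) = 0 ∨ 1 - dl β (y, x) = 1
        rcases hdl (y, x) with ⟨h1, -, -⟩ | ⟨h1, -, -⟩ | ⟨h1, -⟩ <;> rw [h1]
        · left; rfl
        · right; rfl
        · right; rfl
      · change 1 - dl β (y, x) = 0 at h
        rcases hdl (y, x) with ⟨h1, h2, -⟩ | ⟨h1, -, -⟩ | ⟨h1, -⟩
        · rw [h2] at hc1; exact hc1
        · rw [h1] at h; cases h
        · rw [h1] at h; cases h
    have a2 : Adm e₂ := by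
      refine adm_B (fun y x => ?_) c fun y x h => ?_
      · change 1 - dl β (y, x) - dl γ (y, x) = 0 ∨ 1 - dl β (y, x) - dl γ (y, x) = 1
        rcases hdl (y, x) with ⟨h1, -, h2⟩ | ⟨h1, h2, -⟩ | ⟨h1, h2⟩ <;> rw [h1, h2]
        · left; rfl
        · left; rfl
        · right; rfl
      · change 1 - dl β (y, x) - dl γ (y, x) = 0 at h
        rcases hdl (y, x) with ⟨h1, h2, -⟩ | ⟨h1, -, h2⟩ | ⟨h1, h2⟩
        · rw [h2] at hc1; exact hc1
        · rw [h2] at hc2; exact hc2
        · rw [h1, h2] at h; cases h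
    have b1 : e₁ β = 0 := by
      change 1 - dl β β = 0
      rw [dl_self]; rfl
    have b2 : e₂ β = 0 := by
      change 1 - dl β β - dl γ β = 0
      rw [dl_self, dl_ne hγβ]; rfl
    intro K
    refine ((kz_dQ a1 b1 φ K).sub (kz_dQ a2 b2 φ K)).congr fun w => ?_
    have h3 : e₁ = e₂ + dl γ := by
      funext p
      rw [Pi.add_apply]
      change 1 - dl β p = 1 - dl β p - dl γ p + dl γ p
      ring
    have h4 := dQ_add_left e₂ (dl γ) (dl β) (ps K w) 0 0 φ
    rw [add_zero, ← h3] at h4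
    linear_combination -h4

/-- **pair counts of pairs of blocks, not both squares** -/
theorem kz_pair {γ β : Blk α (2 ^ q) × Blk α (2 ^ q)} (h : γ.1 ≠ γ.2 ∨ β.1 ≠ β.2)
    (φ : Option (Blk α (2 ^ q))) : KZ fun w => dQ (dl γ) (dl β) 0 φ w := by
  by_cases hβ : β.1 = β.2
  · have hγ : γ.1 ≠ γ.2 := by
      rcases h with h | h
      · exact h
      · exact absurd hβ h
    have hne : γ ≠ β := fun h1 => hγ (by rw [h1]; exact hβ)
    intro K
    refine ((knZ_mul (kz_num γ φ K) (kz_num β φ K)).sub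
      (kz_one (γ := β) (β := γ) hγ φ K)).congr fun w => ?_
    have h2 := dQ_mul (dl γ) (dl β) (ps K w) 0 0 φ
    rw [dl_mul_ne hne, dd_zero] at h2
    linear_combination h2
  · exact kz_one hβ φ

end known

end Vale.Agent.P329.H559.C2
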