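import Vale.Agent.P329.H559.C2.Defs

/-!
# P329 / automata which read letters in pairs, with kicks -1, 0, 1
-/

set_option linter.all false

namespace Vale.Agent.P329.H559.C2

open Vale.Agent.P329

section sys

variable {A : Type} {M : ℕ} [NeZero M] (d : A → A → ℤ) (T : A → A → Prop)

open Classical in
/-- the transition -/
noncomputable def sp (s : ZMod M × Option A) (x : A) : Option (ZMod M × Option A) :=
  match s.2 with
  | none => some (s.1, some x)
  | some y => if s.1 + ((d y x : ℤ) : ZMod M) = 0 ∧ (d y x ≠ 0 ∨ T y x) then none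
      else some (s.1 + ((d y x : ℤ) : ZMod M), none)

/-- the drift of the completed pairs -/
def dd : Option A → List A → ℤ
  | _, [] => 0
  | none, x :: w => dd (some x) w
  | some y, x :: w => d y x + dd none w

/-- the pending letter at the end -/
def pn : Option A → List A → Option A
  | φ, [] => φ
  | none, x :: w => pn (some x) w
  | some _, _ :: w => pn none w

/-- the number of completed pairs -/
def np : Option A → List A → ℕ
  | _, [] => 0
  | none, x :: w => np (some x) w
  | some _, _ :: w => 1 + np none w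

variable {d T}

theorem dd_append (u v : List A) : ∀ φ : Option A, dd d φ (u ++ v) = dd d φ u + dd d (pn φ u) v := by
  induction u with
  | nil => intro φ; rw [List.nil_append, dd, pn, zero_add]
  | cons x u ih =>
    intro φ
    cases φ with
    | none => rw [List.cons_append, dd, dd, pn, ih]
    | some y => rw [List.cons_append, dd, dd, pn, ih, add_assoc]

theorem pn_append (u v : List A) : ∀ φ : Option A, pn φ (u ++ v) = pn (pn φ u) v := by
  induction u with
  | nil => intro φ; rfl
  | cons x u ih =>
    intro φ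
    cases φ with
    | none => rw [List.cons_append, pn, pn, ih]
    | some y => rw [List.cons_append, pn, pn, ih]

theorem sp_none {u : ZMod M} {x : A} : sp d T (u, none) x = some (u, some x) := rfl

theorem sp_some {u : ZMod M} {y x : A} {t : ZMod M × Option A}
    (h : sp d T (u, some y) x = some t) : t = (u + ((d y x : ℤ) : ZMod M), none) ∧
      ¬ (u + ((d y x : ℤ) : ZMod M) = 0 ∧ (d y x ≠ 0 ∨ T y x)) := by
  unfold sp at h
  dsimp only at h
  by_cases h0 : u + ((d y x : ℤ) : ZMod M) = 0 ∧ (d y x ≠ 0 ∨ T y x)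
  · rw [if_pos h0] at h; cases h
  · rw [if_neg h0] at h
    exact ⟨(Option.some.inj h).symm, h0⟩

theorem run_pn {w : List A} : ∀ {s t : ZMod M × Option A}, run (sp d T) s w = some t →
    t.2 = pn s.2 w := by
  induction w with
  | nil => intro s t h; cases h; rfl
  | cons x w ih =>
    rintro ⟨u, φ⟩ t h
    obtain ⟨s1, h1, h2⟩ := run_cons_eq_some h
    cases φ with
    | none =>
      rw [sp_none] at h1
      cases h1
      rw [ih h2]
      rfl
    | some y =>
      obtain ⟨rfl, -⟩ := sp_some h1
      rw [ih h2]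
      rfl

/-- a step inside the interval -/
theorem val_add {x : ZMod M} {e : ℤ} (he : e = -1 ∨ e = 0 ∨ e = 1) (hx : x ≠ 0)
    (h : x + ((e : ℤ) : ZMod M) ≠ 0) :
    ((x + ((e : ℤ) : ZMod M)).val : ℤ) = (x.val : ℤ) + e := by
  have h1 : x.val < M := x.val_lt
  have h2 : x.val ≠ 0 := fun h => hx ((ZMod.val_eq_zero x).mp h)
  have h3 : x + ((e : ℤ) : ZMod M) = (((x.val : ℤ) + e : ℤ) : ZMod M) := by
    push_cast
    rw [ZMod.natCast_zmod_val]
  have h4 : (0 : ℤ) ≤ (x.val : ℤ) + e := by rcases he with rfl | rfl | rfl <;> omega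
  have h5 : (x.val : ℤ) + e ≤ M := by rcases he with rfl | rfl | rfl <;> omega
  have h6 : (x.val : ℤ) + e ≠ M := by
    intro h6
    apply h
    rw [h3, h6]
    simp
  rw [h3, ZMod.val_intCast, Int.emod_eq_of_lt h4 (lt_of_le_of_ne h5 h6)]

theorem run_val (hd : ∀ y x, d y x = -1 ∨ d y x = 0 ∨ d y x = 1) {w : List A} :
    ∀ {s t : ZMod M × Option A}, run (sp d T) s w = some t → s.1 ≠ 0 →
      t.1 ≠ 0 ∧ (t.1.val : ℤ) = (s.1.val : ℤ) + dd d s.2 w := by
  induction w with
  | nil => intro s t h hU; cases h; exact ⟨hU, by rw [dd, add_zero]⟩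
  | cons x w ih =>
    rintro ⟨u, φ⟩ t h hU
    obtain ⟨s1, h1, h2⟩ := run_cons_eq_some h
    cases φ with
    | none =>
      rw [sp_none] at h1
      cases h1
      obtain ⟨h3, h4⟩ := ih h2 hU
      exact ⟨h3, by rw [h4, dd]⟩
    | some y =>
      obtain ⟨rfl, h0⟩ := sp_some h1
      have h3 : u + ((d y x : ℤ) : ZMod M) ≠ 0 := by
        intro h4
        apply h0
        refine ⟨h4, Or.inl ?_⟩
        intro h5
        rw [h5, Int.cast_zero, add_zero] at h4
        exact hU h4
      obtain ⟨h4, h5⟩ := ih h2 h3
      refine ⟨h4, ?_⟩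
      rw [h5]
      change ((u + ((d y x : ℤ) : ZMod M)).val : ℤ) + dd d none w = (u.val : ℤ) + (d y x + dd d none w)
      rw [val_add (hd y x) hU h3]
      ring

theorem run_zero (hd : ∀ y x, d y x = -1 ∨ d y x = 0 ∨ d y x = 1) {w : List A} :
    ∀ {s t : ZMod M × Option A}, run (sp d T) s w = some t → s.1 = 0 → t.1 = 0 →
      dd d s.2 w = 0 := by
  induction w with
  | nil => intro s t h hU hU'; rfl
  | cons x w ih =>
    rintro ⟨u, φ⟩ t h hU hU'
    obtain ⟨s1, h1, h2⟩ := run_cons_eq_some h
    cases φ with
    | none =>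
      rw [sp_none] at h1
      cases h1
      exact ih h2 hU hU'
    | some y =>
      obtain ⟨rfl, h0⟩ := sp_some h1
      have h3 : u + ((d y x : ℤ) : ZMod M) = 0 := by
        by_contra h3
        exact (run_val hd h2 h3).1 hU'
      have h4 : d y x = 0 := by
        by_contra h4
        exact h0 ⟨h3, Or.inl h4⟩
      change d y x + dd d none w = 0
      rw [h4, zero_add]
      exact ih h2 h3 hU'

/-- a letter is pending at the end iff the number of letters read is odd -/
theorem pn_isSome (w : List A) : ∀ φ : Option A,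
    ((pn φ w).isSome = φ.isSome ↔ Even w.length) := by
  induction w with
  | nil => intro φ; simp [pn]
  | cons x w ih =>
    intro φ
    cases φ with
    | none =>
      rw [pn, List.length_cons, Nat.even_add_one, ← ih (some x)]
      cases (pn (some x) w).isSome <;> simp
    | some y =>
      rw [pn, List.length_cons, Nat.even_add_one, ← ih none]
      cases (pn none w).isSome <;> simp

/-- the pending letter after an even number of letters -/
theorem pn_some {w : List A} : ∀ {φ : Option A} {y : A}, w ≠ [] → pn φ w = some y →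
    w.getLast? = some y := by
  induction w with
  | nil => intro φ y h; exact absurd rfl h
  | cons x w ih =>
    intro φ y _ h
    rcases w with _ | ⟨x', w⟩
    · cases φ with
      | none => exact h
      | some z => cases h
    · have h' : pn (match φ with | none => some x | some _ => none) (x' :: w) = some y := by
        cases φ <;> exact h
      rw [List.getLast?_cons_cons]
      exact ih (List.cons_ne_nil _ _) h'

theorem getLast_pw {z : List A} (hz : z ≠ []) {n : ℕ} (hn : 0 < n) :
    (pw z n).getLast? = z.getLast? := by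
  obtain ⟨k, rfl⟩ : ∃ k, n = k + 1 := ⟨n - 1, by omega⟩
  rw [pw_succ, ← pw_comm, List.getLast?_append_of_ne_nil _ hz]

/-- even cycles -/
theorem even_cyc (hd : ∀ y x, d y x = -1 ∨ d y x = 0 ∨ d y x = 1)
    {s : ZMod M × Option A} {z : List A} {n : ℕ} (hn : 0 < n) (hev : Even z.length)
    (h : run (sp d T) s (pw z n) = some s) :
    run (sp d T) s z = some s ∧ dd d s.2 z = 0 ∧ pn s.2 z = s.2 := by
  by_cases hz : z = []
  · subst hz; exact ⟨rfl, rfl, rfl⟩
  have hpw : pn s.2 (pw z n) = s.2 := (run_pn h).symm
  have hpn : pn s.2 z = s.2 := by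
    have h1 := (pn_isSome z s.2).mpr hev
    rcases h2 : s.2 with _ | y
    · rw [h2] at h1
      rcases h3 : pn none z with _ | y
      · rfl
      · rw [h3] at h1; cases h1
    · rw [h2] at h1
      rcases h3 : pn (some y) z with _ | y'
      · rw [h3] at h1; cases h1
      · have h4 := pn_some hz h3
        have h5 : pw z n ≠ [] := by
          rw [← List.length_pos_iff, pw_length]
          exact Nat.mul_pos hn (List.length_pos_iff.mpr hz)
        have h6 := pn_some h5 (by rw [← h2]; rw [hpw, h2])
        rw [getLast_pw hz hn, h4] at h6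
        exact h6
  obtain ⟨k, rfl⟩ : ∃ k, n = k + 1 := ⟨n - 1, by omega⟩
  have h0 := h
  rw [pw_succ] at h0
  obtain ⟨s1, h1, h2⟩ := run_append_eq_some h0
  have hs1 : s1.2 = s.2 := by rw [run_pn h1, hpn]
  have key : ∀ j, j ≤ k + 1 → ∃ t, run (sp d T) s (pw z j) = some t ∧ t.2 = s.2 ∧
      (s.1 ≠ 0 → t.1 ≠ 0 ∧ (t.1.val : ℤ) = (s.1.val : ℤ) + j * dd d s.2 z) := by
    intro j
    induction j with
    | zero => intro _; exact ⟨s, rfl, rfl, fun h' => ⟨h', by simp⟩⟩
    | succ j ih =>
      intro hj
      obtain ⟨t, h3, h4, h5⟩ := ih (by omega)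
      have h6 : pw z (k + 1) = pw z (j + 1) ++ pw z (k + 1 - (j + 1)) := by
        rw [← pw_add]; congr 1; omega
      rw [h6] at h
      obtain ⟨t', h7, -⟩ := run_append_eq_some h
      have h8 : run (sp d T) t z = some t' := by
        rw [pw_succ, ← pw_comm, run_append _ h3] at h7
        exact h7
      refine ⟨t', h7, by rw [run_pn h8, h4, hpn], fun h' => ?_⟩
      obtain ⟨h9, h10⟩ := h5 h'
      obtain ⟨h11, h12⟩ := run_val hd h8 h9
      refine ⟨h11, ?_⟩
      rw [h12, h10, h4]
      push_cast
      ring
  by_cases hU : s.1 = 0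
  · have hU1 : s1.1 = 0 := by
      by_contra h3
      exact (run_val hd h2 h3).1 hU
    exact ⟨by rw [h1, Prod.ext (hU1.trans hU.symm) hs1], run_zero hd h1 hU hU1, hpn⟩
  · obtain ⟨t, h3, h4, h5⟩ := key (k + 1) le_rfl
    rw [h] at h3
    cases h3
    have h6 := (h5 hU).2
    have h7 : ((k + 1 : ℕ) : ℤ) * dd d s.2 z = 0 := by linarith
    have h8 : dd d s.2 z = 0 := by
      rcases mul_eq_zero.mp h7 with h9 | h9
      · exact absurd (Int.natCast_eq_zero.mp h9) (Nat.succ_ne_zero k)
      · exact h9
    have h9 := (run_val hd h1 hU).2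
    rw [h8, add_zero] at h9
    have h10 : s1.1 = s.1 := ZMod.val_injective M (by exact_mod_cast h9)
    exact ⟨by rw [h1, Prod.ext h10 hs1], h8, hpn⟩

/-- colour sum of the completed pairs -/
def cs (c : A → ℕ) : Option A → List A → ℕ
  | _, [] => 0
  | none, x :: w => cs c (some x) w
  | some y, x :: w => c y + c x + cs c none w

/-- colour of the pending letter -/
def co (c : A → ℕ) : Option A → ℕ
  | none => 0
  | some y => c y

/-- colour sum of a word -/
def cw (c : A → ℕ) : List A → ℕ
  | [] => 0
  | x :: w => c x + cw c w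

theorem cw_append (c : A → ℕ) (u v : List A) : cw c (u ++ v) = cw c u + cw c v := by
  induction u with
  | nil => rw [List.nil_append, cw, Nat.zero_add]
  | cons x u ih => rw [List.cons_append, cw, cw, ih, Nat.add_assoc]

theorem cs_eq (c : A → ℕ) (w : List A) : ∀ φ : Option A,
    cs c φ w + co c (pn φ w) = co c φ + cw c w := by
  induction w with
  | nil => intro φ; rw [cs, pn, cw, Nat.add_zero, Nat.zero_add]
  | cons x w ih =>
    intro φ
    cases φ with
    | none =>
      rw [cs, pn, ih (some x), cw, co, co, Nat.zero_add]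
    | some y =>
      have := ih none
      rw [co] at this
      rw [cs, pn, cw, co]
      omega

theorem np_eq (w : List A) : ∀ φ : Option A,
    2 * np φ w + (pn φ w).isSome.toNat = φ.isSome.toNat + w.length := by
  induction w with
  | nil => intro φ; simp [np, pn]
  | cons x w ih =>
    intro φ
    cases φ with
    | none =>
      have := ih (some x)
      rw [np, pn, List.length_cons]
      simp only [Option.isSome_some, Option.isSome_none, Bool.toNat_true, Bool.toNat_false] at this ⊢
      omega
    | some y =>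
      have := ih none
      rw [np, pn, List.length_cons]
      simp only [Option.isSome_some, Option.isSome_none, Bool.toNat_true, Bool.toNat_false] at this ⊢
      omega

/-- **no odd cycles** -/
theorem no_odd (hd : ∀ y x, d y x = -1 ∨ d y x = 0 ∨ d y x = 1) (c : A → ℕ)
    (hU : ∀ (φ : Option A) (w : List A), dd d φ w = 0 → np φ w % 2 = cs c φ w % 2)
    (z : List A) (s : ZMod M × Option A) (n : ℕ) (hn : 0 < n)
    (h : run (sp d T) s (pw z n) = some s) : Even z.length := by
  by_contra hodd
  rw [Nat.not_even_iff_odd] at hodd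
  have h1 : run (sp d T) s (pw (z ++ z) n) = some s := by
    have e1 : pw (z ++ z) n = pw (pw z n) 2 := by
      have : z ++ z = pw z 2 := by rw [pw_succ, pw_one]
      rw [this, ← pw_mul, ← pw_mul, Nat.mul_comm]
    rw [e1]
    exact run_pw h 2
  obtain ⟨-, h2, h3⟩ := even_cyc hd hn (by rw [List.length_append]; exact ⟨_, rfl⟩) h1
  have h4 := hU _ _ h2
  have h5 := cs_eq c (z ++ z) s.2
  have h6 := np_eq (z ++ z) s.2
  rw [h3] at h5 h6
  rw [cw_append] at h5
  rw [List.length_append] at h6
  obtain ⟨j, hj⟩ := hodd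
  omega

theorem nocyc2 (hd : ∀ y x, d y x = -1 ∨ d y x = 0 ∨ d y x = 1) (c : A → ℕ)
    (hU : ∀ (φ : Option A) (w : List A), dd d φ w = 0 → np φ w % 2 = cs c φ w % 2) :
    NoCyc (sp (M := M) d T) := by
  intro z s n hn h
  exact (even_cyc hd hn (no_odd hd c hU z s n hn h) h).1

/-- kicks of type A -/
theorem typeA {c : A → ℕ} (h : ∀ y x, (d y x - (1 + c y + c x)) % 2 = 0) (w : List A) :
    ∀ φ : Option A, (dd d φ w - (np φ w + cs c φ w : ℕ)) % 2 = 0 := by
  induction w with
  | nil => intro φ; rfl
  | cons x w ih =>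
    intro φ
    cases φ with
    | none => exact ih (some x)
    | some y =>
      have h1 := ih none
      have h2 := h y x
      rw [dd, np, cs]
      push_cast at h1 ⊢
      omega

theorem typeA' {c : A → ℕ} (h : ∀ y x, (d y x - (1 + c y + c x)) % 2 = 0) (φ : Option A)
    (w : List A) (h0 : dd d φ w = 0) : np φ w % 2 = cs c φ w % 2 := by
  have h1 := typeA h w φ
  rw [h0] at h1
  push_cast at h1
  omega

/-- kicks of type B -/
theorem typeB {c : A → ℕ} (h0 : ∀ y x, 0 ≤ d y x)
    (h : ∀ y x, d y x = 0 → (1 + c y + c x) % 2 = 0) (w : List A) :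
    ∀ φ : Option A, 0 ≤ dd d φ w ∧ (dd d φ w = 0 → np φ w % 2 = cs c φ w % 2) := by
  induction w with
  | nil => intro φ; exact ⟨le_rfl, fun _ => rfl⟩
  | cons x w ih =>
    intro φ
    cases φ with
    | none => exact ih (some x)
    | some y =>
      obtain ⟨h1, h2⟩ := ih none
      have h3 := h0 y x
      have h4 := h y x
      rw [dd, np, cs]
      refine ⟨by omega, fun h5 => ?_⟩
      have h6 := h2 (by omega)
      have h7 := h4 (by omega)
      omega

end sys

end Vale.Agent.P329.H559.C2
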